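import Vale.Agent.P017.R2.H985.Defs2

/-!
# P017, module M7b: few exceptional moduli in each dyadic range
-/

open Finset

namespace Vale.Agent.P017.R2.H68

open Vale.Agent.P017.R2.H985

theorem card_mult_le (k c : ℕ) (hc : 0 < c) :
    (((Ico (2 ^ k) (2 ^ (k + 1))).filter (fun m => c ∣ m)).card : ℝ) ≤ (2 : ℝ) ^ k / c + 1 := by
  have hcR : (0 : ℝ) < c := by exact_mod_cast hc
  set S := (Ico (2 ^ k) (2 ^ (k + 1))).filter (fun m => c ∣ m) with hS
  rcases S.eq_empty_or_nonempty with h | h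
  · rw [h]; simp; positivity
  set a := S.min' h with ha
  set b := S.max' h with hb
  have ha' := S.min'_mem h
  have hb' := S.max'_mem h
  rw [← ha] at ha'
  rw [← hb] at hb'
  have hSa : ∀ x ∈ S, a ≤ x ∧ x ≤ b := fun x hx => ⟨S.min'_le x hx, S.le_max' x hx⟩
  have hab : a ≤ b := (hSa a ha').2
  rw [hS, mem_filter, mem_Ico] at ha' hb'
  obtain ⟨⟨ha1, ha2⟩, a', haa⟩ := ha'
  obtain ⟨⟨hb1, hb2⟩, b', hbb⟩ := hb'
  have hsub : S ⊆ (Icc a' b').image (fun l => c * l) := by
    intro x hx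
    have h1 := hSa x hx
    rw [hS, mem_filter] at hx
    obtain ⟨_, l, hl⟩ := hx
    rw [mem_image]
    refine ⟨l, ?_, hl.symm⟩
    rw [mem_Icc]
    constructor
    · have : c * a' ≤ c * l := by rw [← haa, ← hl]; exact h1.1
      exact Nat.le_of_mul_le_mul_left this hc
    · have : c * l ≤ c * b' := by rw [← hbb, ← hl]; exact h1.2
      exact Nat.le_of_mul_le_mul_left this hc
  have hle : a' ≤ b' := by
    have : c * a' ≤ c * b' := by rw [← haa, ← hbb]; exact hab
    exact Nat.le_of_mul_le_mul_left this hc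
  have hcard : S.card ≤ b' + 1 - a' := by
    calc S.card ≤ _ := Finset.card_le_card hsub
      _ ≤ (Icc a' b').card := Finset.card_image_le
      _ = _ := by simp
  have h3 : (S.card : ℝ) ≤ (b' : ℝ) + 1 - a' := by
    have : ((b' + 1 - a' : ℕ) : ℝ) = (b' : ℝ) + 1 - a' := by
      rw [Nat.cast_sub (by omega)]; push_cast; ring
    rw [← this]; exact_mod_cast hcard
  have h4 : (c : ℝ) * (b' - a') ≤ 2 ^ k := by
    have : c * b' < 2 ^ k + c * a' := by
      rw [← haa, ← hbb]
      have : 2 ^ (k + 1) = 2 ^ k + 2 ^ k := by ring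
      omega
    have h5 : (c : ℝ) * b' < 2 ^ k + c * a' := by exact_mod_cast this
    nlinarith
  have h5 : (b' : ℝ) - a' ≤ 2 ^ k / c := by
    rw [le_div_iff₀ hcR]; linarith
  linarith

theorem sum_mult_le (k c : ℕ) (hc : 0 < c) (hck : c < 2 ^ (k + 1)) :
    ∑ m ∈ (Ico (2 ^ k) (2 ^ (k + 1))).filter (fun m => c ∣ m), 1 / (m : ℝ) ≤ 3 / c := by
  have hcR : (0 : ℝ) < c := by exact_mod_cast hc
  have h2 : (0 : ℝ) < 2 ^ k := by positivity
  calc ∑ m ∈ (Ico (2 ^ k) (2 ^ (k + 1))).filter (fun m => c ∣ m), 1 / (m : ℝ)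
      ≤ ∑ m ∈ (Ico (2 ^ k) (2 ^ (k + 1))).filter (fun m => c ∣ m), 1 / ((2 : ℝ) ^ k) := by
        refine Finset.sum_le_sum fun m hm => ?_
        rw [mem_filter, mem_Ico] at hm
        apply one_div_le_one_div_of_le h2
        exact_mod_cast hm.1.1
    _ = (((Ico (2 ^ k) (2 ^ (k + 1))).filter (fun m => c ∣ m)).card : ℝ) * (1 / 2 ^ k) := by
        rw [Finset.sum_const, nsmul_eq_mul]
    _ ≤ ((2 : ℝ) ^ k / c + 1) * (1 / 2 ^ k) :=
        mul_le_mul_of_nonneg_right (card_mult_le k c hc) (by positivity)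
    _ = 1 / c + 1 / 2 ^ k := by field_simp
    _ ≤ 1 / c + 2 / c := by
        refine add_le_add le_rfl ?_
        rw [div_le_div_iff₀ h2 hcR]
        have : (c : ℝ) < 2 ^ (k + 1) := by exact_mod_cast hck
        rw [pow_succ] at this
        linarith
    _ = 3 / c := by ring

/-- (M7b) -/
theorem exc (hCS : StmtCharSum) (hM : StmtMain) : StmtExc := by
  classical
  intro ε hε
  obtain ⟨N₁, h1⟩ := hCS (ε / 120) (by positivity)
  obtain ⟨N₂, h2⟩ := hM
  refine ⟨max 1 (max N₁ N₂), fun N hN k hk r hr hrc => ?_⟩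
  have hN1 : N₁ ≤ N := le_trans (le_max_of_le_right (le_max_left _ _)) hN
  have hN2 : N₂ ≤ N := le_trans (le_max_of_le_right (le_max_right _ _)) hN
  have hN0 : 1 ≤ N := le_trans (le_max_left _ _) hN
  have hNR : (0 : ℝ) < N := by exact_mod_cast hN0
  have hcs := h1 N hN1 r hr hrc
  have hm := h2 N hN2 r hr hrc
  set Θ := Theta N r 1 with hΘ
  have hΘ0 : 0 < Θ := lt_of_lt_of_le (by positivity) hm
  set F := (Ico (2 ^ k) (2 ^ (k + 1))).filter
    (fun m => Squarefree m ∧ m.Coprime 30 ∧ Exc N r m) with hF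
  set D := (Icc 2 N).filter (fun c => c ^ 4 ≤ N ∧ Squarefree c ∧ c.Coprime 30) with hD
  -- pointwise
  have hpt : ∀ m ∈ F, 1 / (m : ℝ) ≤
      ∑ c ∈ D, (2 / Θ * |Theta N r c|) * (if c ∣ m then 1 / (m : ℝ) else 0) := by
    intro m hm
    rw [hF, mem_filter, mem_Ico] at hm
    obtain ⟨⟨hm1, hm2⟩, hsq, hco, hex⟩ := hm
    have hm0 : 0 < m := lt_of_lt_of_le (by positivity) hm1
    have hmR : (0 : ℝ) < m := by exact_mod_cast hm0
    unfold Exc at hex
    rw [← hΘ] at hex
    have hsub : m.divisors.erase 1 ⊆ D.filter (fun c => c ∣ m) := by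
      intro c hc
      rw [mem_erase, Nat.mem_divisors] at hc
      obtain ⟨hc1, hcm, _⟩ := hc
      have hc0 : 0 < c := Nat.pos_of_dvd_of_pos hcm hm0
      have hcle : c ≤ m := Nat.le_of_dvd hm0 hcm
      have hc4 : c ^ 4 ≤ N := by
        calc c ^ 4 ≤ (2 ^ (k + 1)) ^ 4 := Nat.pow_le_pow_left (by omega) 4
          _ = 2 ^ (4 * (k + 1)) := by rw [← pow_mul]; ring_nf
          _ ≤ N := hk
      rw [mem_filter, hD, mem_filter, mem_Icc]
      refine ⟨⟨⟨by omega, ?_⟩, hc4, hsq.squarefree_of_dvd hcm,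
        Nat.Coprime.coprime_dvd_left hcm hco⟩, hcm⟩
      exact le_trans (Nat.le_self_pow (by norm_num) c) hc4
    have hle : ∑ c ∈ m.divisors.erase 1, |Theta N r c| ≤
        ∑ c ∈ D, |Theta N r c| * (if c ∣ m then 1 else 0) := by
      calc ∑ c ∈ m.divisors.erase 1, |Theta N r c| ≤
          ∑ c ∈ D.filter (fun c => c ∣ m), |Theta N r c| :=
            Finset.sum_le_sum_of_subset_of_nonneg hsub fun _ _ _ => abs_nonneg _
        _ = _ := by
            rw [Finset.sum_filter]
            refine Finset.sum_congr rfl fun c _ => ?_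
            split_ifs <;> simp
    have h3 : 1 ≤ 2 / Θ * ∑ c ∈ D, |Theta N r c| * (if c ∣ m then 1 else 0) := by
      rw [div_mul_eq_mul_div, one_le_div hΘ0]
      linarith
    calc 1 / (m : ℝ) = 1 * (1 / m) := by ring
      _ ≤ (2 / Θ * ∑ c ∈ D, |Theta N r c| * (if c ∣ m then 1 else 0)) * (1 / m) :=
          mul_le_mul_of_nonneg_right h3 (by positivity)
      _ = _ := by
          rw [Finset.mul_sum, Finset.sum_mul]
          refine Finset.sum_congr rfl fun c _ => ?_
          split_ifs <;> ring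
  calc ∑ m ∈ F, 1 / (m : ℝ)
      ≤ ∑ m ∈ F, ∑ c ∈ D, (2 / Θ * |Theta N r c|) * (if c ∣ m then 1 / (m : ℝ) else 0) :=
        Finset.sum_le_sum hpt
    _ = ∑ c ∈ D, (2 / Θ * |Theta N r c|) * ∑ m ∈ F, (if c ∣ m then 1 / (m : ℝ) else 0) := by
        rw [Finset.sum_comm]
        refine Finset.sum_congr rfl fun c _ => ?_
        rw [Finset.mul_sum]
    _ ≤ ∑ c ∈ D, (2 / Θ * |Theta N r c|) * (3 / c) := by
        refine Finset.sum_le_sum fun c hc => ?_
        rw [hD, mem_filter, mem_Icc] at hc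
        apply mul_le_mul_of_nonneg_left _ (by positivity)
        by_cases hck : c < 2 ^ (k + 1)
        · calc ∑ m ∈ F, (if c ∣ m then 1 / (m : ℝ) else 0)
              ≤ ∑ m ∈ Ico (2 ^ k) (2 ^ (k + 1)), (if c ∣ m then 1 / (m : ℝ) else 0) :=
                Finset.sum_le_sum_of_subset_of_nonneg (Finset.filter_subset _ _)
                  (fun m _ _ => by split_ifs <;> positivity)
            _ = ∑ m ∈ (Ico (2 ^ k) (2 ^ (k + 1))).filter (fun m => c ∣ m), 1 / (m : ℝ) := by
                rw [Finset.sum_filter]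
            _ ≤ 3 / c := sum_mult_le k c (by omega) hck
        · have : ∑ m ∈ F, (if c ∣ m then 1 / (m : ℝ) else 0) = 0 := by
            refine Finset.sum_eq_zero fun m hm => ?_
            rw [hF, mem_filter, mem_Ico] at hm
            have hm0 : 0 < m := lt_of_lt_of_le (by positivity) hm.1.1
            rw [if_neg]
            intro hd
            have := Nat.le_of_dvd hm0 hd
            omega
          rw [this]; positivity
    _ = 6 / Θ * ∑ c ∈ D, |Theta N r c| / c := by
        rw [Finset.mul_sum]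
        refine Finset.sum_congr rfl fun c _ => ?_
        ring
    _ ≤ 6 / Θ * (ε / 120 * N) := by
        apply mul_le_mul_of_nonneg_left hcs (by positivity)
    _ ≤ ε := by
        rw [div_mul_eq_mul_div, div_le_iff₀ hΘ0]
        nlinarith

end Vale.Agent.P017.R2.H68
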