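import Mathlib

/-!
# P017, module M7a: harmonic sum over squarefree numbers prime to 30
-/

open Finset

namespace Vale.Agent.P017.R2.H68

/-- the set of summation -/
def SF (Y : ℕ) : Finset ℕ := (Icc 1 Y).filter (fun m => Squarefree m ∧ m.Coprime 30)

theorem sum_sq_le (Y : ℕ) : ∑ a ∈ Icc 1 Y, 1 / ((a : ℝ) ^ 2) ≤ 2 := by
  rcases Nat.eq_zero_or_pos Y with rfl | hY
  · simp
  have h : ∀ n : ℕ, 1 ≤ n → ∑ a ∈ Icc 1 n, 1 / ((a : ℝ) ^ 2) ≤ 2 - 1 / (n : ℝ) := by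
    intro n hn
    induction n, hn using Nat.le_induction with
    | base => norm_num
    | succ n hn ih =>
      rw [Finset.sum_Icc_succ_top (by omega)]
      have hn0 : (0 : ℝ) < n := by exact_mod_cast hn
      have : 1 / (((n + 1 : ℕ) : ℝ) ^ 2) ≤ 1 / (n : ℝ) - 1 / ((n + 1 : ℕ) : ℝ) := by
        push_cast
        rw [div_sub_div _ _ (ne_of_gt hn0) (by positivity), div_le_div_iff₀ (by positivity)
          (by positivity)]
        nlinarith
      linarith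
  have := h Y hY
  have h2 : (0 : ℝ) ≤ 1 / (Y : ℝ) := by positivity
  linarith

theorem decomp {n : ℕ} (hn : 0 < n) : ∃ d a m : ℕ, d ∣ 30 ∧ 0 < a ∧ Squarefree m ∧
    m.Coprime 30 ∧ 0 < m ∧ d * a ^ 2 * m = n := by
  obtain ⟨s, b, hs, hb, hn', hsq⟩ := Nat.sq_mul_squarefree_of_pos hn
  set d := s.gcd 30 with hd
  have hd0 : 0 < d := Nat.gcd_pos_of_pos_right _ (by norm_num)
  have hds : d ∣ s := Nat.gcd_dvd_left _ _
  obtain ⟨m, hm⟩ := hds
  have hm0 : 0 < m := by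
    rcases Nat.eq_zero_or_pos m with h | h
    · rw [h, mul_zero] at hm; omega
    · exact h
  refine ⟨d, b, m, Nat.gcd_dvd_right _ _, hb, ?_, ?_, hm0, ?_⟩
  · exact hsq.squarefree_of_dvd ⟨d, by rw [hm]; ring⟩
  · by_contra hc
    obtain ⟨p, hp, hpm, hp30⟩ := Nat.Prime.not_coprime_iff_dvd.1 hc
    have hps : p ∣ s := hpm.trans ⟨d, by rw [hm]; ring⟩
    have hpd : p ∣ d := Nat.dvd_gcd hps hp30
    have : p * p ∣ s := by rw [hm]; exact mul_dvd_mul hpd hpm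
    exact hp.one_lt.ne' (Nat.isUnit_iff.1 (hsq p this))
  · rw [← hn', hm]; ring

theorem harm_le (Y : ℕ) : ∑ n ∈ Icc 1 Y, 1 / (n : ℝ) ≤ 16 * ∑ m ∈ SF Y, 1 / (m : ℝ) := by
  set T := (Nat.divisors 30) ×ˢ ((Icc 1 Y) ×ˢ (SF Y)) with hT
  let f : ℕ × ℕ × ℕ → ℕ := fun t => t.1 * t.2.1 ^ 2 * t.2.2
  have hsub : Icc 1 Y ⊆ T.image f := by
    intro n hn
    rw [Finset.mem_Icc] at hn
    obtain ⟨d, a, m, hd, ha, hm, hc, hm0, he⟩ := decomp (n := n) (by omega)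
    rw [Finset.mem_image]
    have hd0 : 0 < d := Nat.pos_of_dvd_of_pos hd (by norm_num)
    have h1 : a ∣ n := ⟨d * a * m, by rw [← he]; ring⟩
    have h2 : m ∣ n := ⟨d * a ^ 2, by rw [← he]; ring⟩
    have h1' := Nat.le_of_dvd (by omega) h1
    have h2' := Nat.le_of_dvd (by omega) h2
    refine ⟨(d, a, m), ?_, he⟩
    simp only [hT, Finset.mem_product, SF, Finset.mem_filter, Finset.mem_Icc, Nat.mem_divisors]
    exact ⟨⟨hd, by norm_num⟩, ⟨ha, by omega⟩, ⟨⟨hm0, by omega⟩, hm, hc⟩⟩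
  have hpos : ∀ n : ℕ, (0 : ℝ) ≤ 1 / (n : ℝ) := fun n => by positivity
  have step1 : ∑ n ∈ Icc 1 Y, 1 / (n : ℝ) ≤ ∑ n ∈ T.image f, 1 / (n : ℝ) :=
    Finset.sum_le_sum_of_subset_of_nonneg hsub (fun n _ _ => hpos n)
  have step2 : ∑ n ∈ T.image f, 1 / (n : ℝ) ≤ ∑ t ∈ T, 1 / ((f t : ℕ) : ℝ) := by
    rw [← Finset.sum_fiberwise_of_maps_to (s := T) (t := T.image f) (g := f)
      (fun t ht => Finset.mem_image_of_mem f ht)]
    refine Finset.sum_le_sum fun n hn => ?_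
    obtain ⟨t, ht, hft⟩ := Finset.mem_image.1 hn
    have hmem : t ∈ T.filter (fun t => f t = n) := by simp [ht, hft]
    calc 1 / (n : ℝ) = 1 / ((f t : ℕ) : ℝ) := by rw [hft]
      _ ≤ _ := Finset.single_le_sum (f := fun t => 1 / ((f t : ℕ) : ℝ)) (fun t _ => hpos _) hmem
  have step3 : ∑ t ∈ T, 1 / ((f t : ℕ) : ℝ) =
      (∑ d ∈ Nat.divisors 30, 1 / (d : ℝ)) *
        ((∑ a ∈ Icc 1 Y, 1 / ((a : ℝ) ^ 2)) * ∑ m ∈ SF Y, 1 / (m : ℝ)) := by
    rw [hT, Finset.sum_product, Finset.sum_mul]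
    refine Finset.sum_congr rfl fun d _ => ?_
    rw [Finset.sum_product, Finset.sum_mul, Finset.mul_sum]
    refine Finset.sum_congr rfl fun a _ => ?_
    rw [Finset.mul_sum, Finset.mul_sum]
    refine Finset.sum_congr rfl fun m _ => ?_
    simp only [f]
    push_cast
    rw [one_div, one_div, one_div, one_div, mul_inv, mul_inv]
    ring
  have hd : ∑ d ∈ Nat.divisors 30, 1 / (d : ℝ) ≤ 8 := by
    have : (Nat.divisors 30).card = 8 := by decide +kernel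
    calc ∑ d ∈ Nat.divisors 30, 1 / (d : ℝ) ≤ ∑ d ∈ Nat.divisors 30, (1 : ℝ) := by
          refine Finset.sum_le_sum fun d hd => ?_
          have : 1 ≤ d := Nat.pos_of_mem_divisors hd
          rw [div_le_one (by exact_mod_cast this)]
          exact_mod_cast this
      _ = 8 := by simp [this]
  have hS0 : 0 ≤ ∑ m ∈ SF Y, 1 / (m : ℝ) := Finset.sum_nonneg fun m _ => hpos m
  have hA0 : 0 ≤ ∑ a ∈ Icc 1 Y, 1 / ((a : ℝ) ^ 2) := Finset.sum_nonneg fun m _ => by positivity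
  calc ∑ n ∈ Icc 1 Y, 1 / (n : ℝ) ≤ _ := step1.trans step2
    _ = _ := step3
    _ ≤ 8 * (2 * ∑ m ∈ SF Y, 1 / (m : ℝ)) :=
        mul_le_mul hd (mul_le_mul_of_nonneg_right (sum_sq_le Y) hS0) (by positivity) (by norm_num)
    _ = 16 * ∑ m ∈ SF Y, 1 / (m : ℝ) := by ring

/-- `StmtSqf` of `H985/Defs` -/
theorem sqf : ∃ c : ℝ, 0 < c ∧ ∀ Y : ℕ, 2 ≤ Y →
    c * Real.log Y ≤ ∑ m ∈ (Icc 1 Y).filter (fun m => Squarefree m ∧ m.Coprime 30),
      1 / (m : ℝ) := by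
  refine ⟨1 / 16, by norm_num, fun Y hY => ?_⟩
  have h1 := harm_le Y
  have h2 : Real.log Y ≤ ∑ n ∈ Icc 1 Y, 1 / (n : ℝ) := by
    have := log_add_one_le_harmonic Y
    rw [harmonic_eq_sum_Icc] at this
    push_cast at this
    have h3 : Real.log Y ≤ Real.log (Y + 1) := by
      apply Real.log_le_log
      · exact_mod_cast (by omega : 0 < Y)
      · linarith
    simp only [one_div]
    linarith
  have h3 : (SF Y) = (Icc 1 Y).filter (fun m => Squarefree m ∧ m.Coprime 30) := rfl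
  rw [h3] at h1
  linarith

end Vale.Agent.P017.R2.H68
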